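import Vale.Agent.P201.Bd3.B4
import Vale.Agent.P201.Bd3.B3
import Vale.Agent.P201.Bd3.B1
import Vale.Agent.P194.H798.Main

/-!
P186 (helper687): a torsion-free word-hyperbolic group with a finite set of nontrivial elements
which meets the kernel of every homomorphism to a group that is sofic, or surjunctive, or has a
directly finite group algebra in characteristic 2.
-/

namespace Vale.Agent.P186.H687

universe u v w

open Vale.Agent.P194

/-- If `a * b = 1` and `b * a ≠ 1` in `F_2[G]`, then there is a finite set `F` of nontrivial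
elements of `G` such that the same happens in `F_2[Q]` for every homomorphism `G → Q` which kills
no element of `F`. -/
theorem exists_finset {G : Type w} [Group G] {a b : MonoidAlgebra (ZMod 2) G} (hab : a * b = 1)
    (hba : b * a ≠ 1) :
    ∃ F : Finset G, (1 : G) ∉ F ∧ ∀ (Q : Type v) [Group Q] (f : G →* Q), (∀ g ∈ F, f g ≠ 1) →
      ∃ a' b' : MonoidAlgebra (ZMod 2) Q, a' * b' = 1 ∧ b' * a' ≠ 1 := by
  classical
  set c := b * a - 1 with hc
  have hc0 : c ≠ 0 := sub_ne_zero.2 hba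
  refine ⟨((c.coeff.support ×ˢ c.coeff.support).image fun p => p.1⁻¹ * p.2).erase 1,
    Finset.notMem_erase _ _, fun Q _ f hf => ?_⟩
  have hinj : Set.InjOn f (c.coeff.support : Set G) := by
    intro s hs t ht hst
    by_contra hne
    refine hf (s⁻¹ * t) (Finset.mem_erase.2 ⟨fun h => hne (inv_mul_eq_one.1 h),
      Finset.mem_image.2 ⟨(s, t), Finset.mem_product.2 ⟨hs, ht⟩, rfl⟩⟩) ?_
    rw [map_mul, map_inv, hst, inv_mul_cancel]
  let f1 : MonoidAlgebra (ZMod 2) G →+* MonoidAlgebra (ZMod 2) Q :=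
    MonoidAlgebra.mapDomainRingHom (ZMod 2) f
  refine ⟨f1 a, f1 b, by rw [← map_mul, hab, map_one], fun h => hc0 ?_⟩
  have h1 : f1 c = 0 := by rw [hc, map_sub, map_mul, h, map_one, sub_self]
  have h2 : Finsupp.mapDomain f c.coeff = Finsupp.mapDomain f (0 : G →₀ ZMod 2) := by
    have h3 : (f1 c).coeff = 0 := by rw [h1]; rfl
    rw [Finsupp.mapDomain_zero, ← h3]
    rfl
  have h4 := Finsupp.mapDomain_injOn (M := ZMod 2) (c.coeff.support : Set G) hinj
    (show c.coeff ∈ {w : G →₀ ZMod 2 | (w.support : Set G) ⊆ c.coeff.support} by rw [Set.mem_ofPred_eq])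
    (show (0 : G →₀ ZMod 2) ∈ {w : G →₀ ZMod 2 | (w.support : Set G) ⊆ c.coeff.support} by simp)
    h2
  exact MonoidAlgebra.coeff_injective (by rw [h4]; rfl)

/-- A pair over `F_2[Q]` gives a pair over `K[Q]` for every nontrivial ring `K` of characteristic
`2`. -/
theorem base_change {Q : Type v} [Group Q] {a b : MonoidAlgebra (ZMod 2) Q} (hab : a * b = 1)
    (hba : b * a ≠ 1) (K : Type u) [Ring K] [Nontrivial K] [CharP K 2] :
    ∃ a b : MonoidAlgebra K Q, a * b = 1 ∧ b * a ≠ 1 := by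
  let f2 : MonoidAlgebra (ZMod 2) Q →+* MonoidAlgebra K Q :=
    MonoidAlgebra.mapRingHom Q (ZMod.castHom (dvd_refl 2) K)
  have hf2 : Function.Injective f2 := by
    intro x y hxy
    apply MonoidAlgebra.coeff_injective
    ext g
    have h := congrArg (fun z => MonoidAlgebra.coeff z g) hxy
    simp only [f2, MonoidAlgebra.coeff_mapRingHom] at h
    exact (ZMod.castHom (dvd_refl 2) K).injective (by simpa using h)
  refine ⟨f2 a, f2 b, by rw [← map_mul, hab, map_one], fun h => hba (hf2 ?_)⟩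
  rw [map_mul, h, map_one]

/-- The group of the machine: torsion-free, finitely presented, word-hyperbolic, not residually
finite, with a finite obstruction set. -/
theorem main :
    ∃ (G : Type) (_ : Group G), (∀ g : G, ∀ m : ℕ, 0 < m → g ^ m = 1 → g = 1) ∧
      Vale.Agent.P186.IsHyperbolicGroup G ∧ ¬ Group.ResiduallyFinite G ∧
      ∃ F : Finset G, (1 : G) ∉ F ∧ ∀ (Q : Type v) [Group Q],
        (IsSofic Q ∨ IsSurjunctive Q ∨ ∃ (K : Type u) (_ : Ring K) (_ : Nontrivial K),
          CharP K 2 ∧ ∀ a b : MonoidAlgebra K Q, a * b = 1 → b * a = 1) →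
        ∀ f : G →* Q, ∃ g ∈ F, f g = 1 := by
  obtain ⟨S, σ, e1, he1, Y, htor, hlin, a, b, hab, hba⟩ :=
    Vale.Agent.P194.M.data Vale.Agent.P201.S.stmtLoc Vale.Agent.P201.S.stmtGlob
      Vale.Agent.P201.S.stmtTor
  obtain ⟨F, hF, hk⟩ := exists_finset.{v, 0} hab hba
  refine ⟨Vale.Agent.P201.S.Gp σ, inferInstance, htor,
    Vale.Agent.P186.Hyp.hyperbolic_machine Vale.Agent.P186.Hyp.lin Vale.Agent.P186.Hyp.graph
      Vale.Agent.P186.Hyp.conn σ e1 he1 Y hlin,
    fun hrf => hba (Vale.Agent.P186.Hyp.rf _ hrf a b hab), F, hF, fun Q _ hQ f => ?_⟩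
  by_contra hne
  push Not at hne
  obtain ⟨a', b', h1, h2⟩ := hk Q f hne
  rcases hQ with h | h | ⟨K, _, _, hK, h⟩
  · exact Vale.Agent.P194.H798.not_sofic h1 h2 h
  · exact Vale.Agent.P194.H798.not_surjunctive h1 h2 h
  · obtain ⟨a'', b'', h3, h4⟩ := base_change h1 h2 K
    exact h4 (h a'' b'' h3)

end Vale.Agent.P186.H687
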